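import Vale.Agent.P017.R4.Defs2
import Vale.Agent.P017.R3.H816.D1b

/-!
# P017, R4: descent half of (E2) and (E4)

`Lin3` and `Lin2` are the statements of the linear half.
-/

open Finset

namespace Vale.Agent.P017.R4.H816

open Vale.Agent.P017.R3
open Vale.Agent.P017.R2.H985 (bit PF Pat sym Mat cork)
open Vale.Agent.P017.H185

/-- linear half, case III -/
def Lin3 : Prop := ∀ {κ : ZMod 2} {n p : ℕ} {b : ℤ}, Squarefree n → Odd n → ¬ 3 ∣ n → ¬ 5 ∣ n →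
  p.Prime → 5 < p → ¬ p ∣ n → OK2 (2 * (n * p)) → ((n * p) % 4 = 1 ↔ κ = 1) →
  ck (MM3s κ n (sym n p) (bit 2 p)) = 0 → b.natAbs ∣ n * p * 2 * 3 →
  (b % 8 = 1 ∨ ∃ b' : ℤ, b = 2 * b' ∧ (b' + ((n * p : ℕ) : ℤ)) % 8 = 0) →
  IsSquare (b : ZMod 5) →
  (∀ q δ : ℕ, q.Prime → q ∣ n → 2 * (n * p) = q * δ → (¬ (q : ℤ) ∣ b → IsSquare (b : ZMod q)) ∧
    (∀ β : ℤ, b = q * β → IsSquare ((-(δ * β) : ℤ) : ZMod q))) →
  b = 1 ∨ b = -((2 * (n * p) : ℕ) : ℤ)

/-- linear half, case II -/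
def Lin2 : Prop := ∀ {n p : ℕ} {b : ℤ}, Squarefree n → Odd n → ¬ 3 ∣ n → ¬ 5 ∣ n →
  p.Prime → 5 < p → ¬ p ∣ n → OK2 (n * p) → (n * p) % 4 = 1 →
  ck (MM2s n (sym n p) (bit 2 p)) = 0 → b.natAbs ∣ n * p * 3 →
  (b % 8 = 1 ∨ (b + ((n * p : ℕ) : ℤ)) % 8 = 0) →
  IsSquare (b : ZMod 5) →
  (∀ q δ : ℕ, q.Prime → q ∣ n → n * p = q * δ → (¬ (q : ℤ) ∣ b → IsSquare (b : ZMod q)) ∧
    (∀ β : ℤ, b = q * β → IsSquare ((-(δ * β) : ℤ) : ZMod q))) →
  b = 1 ∨ b = -((n * p : ℕ) : ℤ)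

theorem desc_gen {d : ℕ} (hd : Squarefree d) (hok : OK2 d)
    (H : ∀ b M e N : ℤ, Squarefree b → IsCoprime M e →
      (b * M ^ 2 + (d : ℤ) * e ^ 2) * (b * M ^ 2 + 81 * (d : ℤ) * e ^ 2) = b * N ^ 2 →
      b.natAbs ∣ d * 3 → IsSquare (b : ZMod 5) →
      (∀ q δ : ℕ, q.Prime → d = q * δ → (¬ (q : ℤ) ∣ b → IsSquare (b : ZMod q)) ∧
        (∀ β : ℤ, b = q * β → IsSquare ((-(δ * β) : ℤ) : ZMod q))) →
      b = 1 ∨ b = -(d : ℤ)) : Cond2 (d : ℚ) := by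
  have h3d : ¬ 3 ∣ d := by have := hok.1; omega
  have h5d : ¬ 5 ∣ d := by have := hok.2; omega
  intro X Y h hX
  obtain ⟨b, M, e, hb, hMe, hM, he, hXb⟩ := exists_sqf hX
  obtain ⟨N, hN⟩ := exists_int_eq (Y := Y) (α := (d : ℤ)) (β := 81 * (d : ℤ)) hb hM he hXb
    (by push_cast; rw [h])
  have hdsq : Squarefree (d : ℤ) := Int.squarefree_natCast.mpr hd
  have hbprime : ∀ p : ℕ, p.Prime → (p : ℤ) ∣ b → p ∣ d ∨ p = 3 := by
    intro p hp hpb
    by_contra hcon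
    rw [not_or] at hcon
    apply prime_dvd_gen hp hb hMe hN hpb
    · exact fun h => hcon.1 (by exact_mod_cast h)
    · intro h2
      rcases (Nat.prime_iff_prime_int.mp hp).dvd_or_dvd h2 with h2 | h2
      · have h4 : p ∣ 3 ^ 4 := by exact_mod_cast h2
        exact hcon.2 ((Nat.prime_dvd_prime_iff_eq hp Nat.prime_three).mp (hp.dvd_of_dvd_pow h4))
      · exact hcon.1 (by exact_mod_cast h2)
  have hBsq : Squarefree b.natAbs := Int.squarefree_natAbs.mpr hb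
  have hbD : b.natAbs ∣ d * 3 := by
    rw [← Nat.prod_primeFactors_of_squarefree hBsq]
    refine Finset.prod_primes_dvd _ (fun p hp => (Nat.prime_of_mem_primeFactors hp).prime)
      (fun p hp => ?_)
    rcases hbprime p (Nat.prime_of_mem_primeFactors hp)
      (Int.natCast_dvd.mpr (Nat.dvd_of_mem_primeFactors hp)) with h | h
    · exact h.mul_right 3
    · rw [h]; exact dvd_mul_left 3 d
  -- modulo 5
  have hb5 : IsSquare (b : ZMod 5) := by
    have h5b : ¬ ((5 : ℕ) : ℤ) ∣ b := by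
      intro h
      rcases hbprime 5 Nat.prime_five h with h | h
      · exact h5d h
      · omega
    have hb0 : (b : ZMod 5) ≠ 0 := (ne_iff (p := 5)).mpr h5b
    have key1 : ∀ M e N : ZMod 5, (2 * M ^ 2 + 1 * e ^ 2) * (2 * M ^ 2 + 81 * 1 * e ^ 2) =
        2 * N ^ 2 → M = 0 ∧ e = 0 := by decide
    have key2 : ∀ M e N : ZMod 5, (3 * M ^ 2 + 1 * e ^ 2) * (3 * M ^ 2 + 81 * 1 * e ^ 2) =
        3 * N ^ 2 → M = 0 ∧ e = 0 := by decide
    have key3 : ∀ M e N : ZMod 5, (2 * M ^ 2 + 4 * e ^ 2) * (2 * M ^ 2 + 81 * 4 * e ^ 2) =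
        2 * N ^ 2 → M = 0 ∧ e = 0 := by decide
    have key4 : ∀ M e N : ZMod 5, (3 * M ^ 2 + 4 * e ^ 2) * (3 * M ^ 2 + 81 * 4 * e ^ 2) =
        3 * N ^ 2 → M = 0 ∧ e = 0 := by decide
    have h1 := congrArg (Int.cast : ℤ → ZMod 5) hN
    push_cast at h1
    have hdz : (d : ZMod 5) = ((d % 5 : ℕ) : ZMod 5) := by simp
    have hcontra : ¬ ((M : ZMod 5) = 0 ∧ (e : ZMod 5) = 0) := by
      rintro ⟨g1, g2⟩
      exact cop_ndvd Nat.prime_five hMe ((zero_iff (p := 5)).mp g2) ((zero_iff (p := 5)).mp g1)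
    have h5cases : ∀ z : ZMod 5, z = 0 ∨ z = 1 ∨ z = 2 ∨ z = 3 ∨ z = 4 := by decide
    rcases h5cases (b : ZMod 5) with h6 | h6 | h6 | h6 | h6
    · exact absurd h6 hb0
    · rw [h6]; exact ⟨1, by decide⟩
    · exfalso
      rw [h6, hdz] at h1
      rcases hok.2 with h7 | h7
      · rw [h7] at h1; exact hcontra (key1 _ _ _ (by simpa using h1))
      · rw [h7] at h1; exact hcontra (key3 _ _ _ (by simpa using h1))
    · exfalso
      rw [h6, hdz] at h1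
      rcases hok.2 with h7 | h7
      · rw [h7] at h1; exact hcontra (key2 _ _ _ (by simpa using h1))
      · rw [h7] at h1; exact hcontra (key4 _ _ _ (by simpa using h1))
    · rw [h6]; exact ⟨2, by decide⟩
  have hfin : b = 1 ∨ b = -(d : ℤ) := by
    refine H b M e N hb hMe hN hbD hb5 ?_
    intro q δ hq hδ
    have hδ' : (d : ℤ) = q * (δ : ℤ) := by rw [hδ]; push_cast; rfl
    have hqδ : ¬ (q : ℤ) ∣ (δ : ℤ) := not_dvd_of_sqf hq hdsq hδ'
    constructor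
    · intro hqb
      exact sq_of_ndvd hq hMe hN hδ' hqδ hqb
    · intro β hβ
      exact sq_of_dvd hq hb hMe hN hδ' hqδ hβ
  refine ⟨M / e, ?_⟩
  rcases hfin with h1 | h1
  · left; rw [hXb, h1]; push_cast; ring
  · right; rw [hXb, h1]; push_cast; ring

theorem stmtE4_of (lin : Lin2) : StmtE4 := by
  intro n hn ho h3 h5 p hp p5 hpn hok h4 hc
  have hcop : Nat.Coprime n p := ((Nat.Prime.coprime_iff_not_dvd hp).mpr hpn).symm
  have hd : Squarefree (n * p) := (Nat.squarefree_mul hcop).mpr ⟨hn, hp.squarefree⟩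
  apply desc_gen hd hok
  intro b M e N hb hMe hN hbD hb5 hloc
  have hbo : b % 2 = 1 := by
    by_contra hcon
    have h1 : 2 ∣ b.natAbs := by omega
    have h2 := h1.trans hbD
    omega
  refine lin hn ho h3 h5 hp p5 hpn hok h4 hc hbD ?_ hb5 (fun q δ hq _ hδ => hloc q δ hq hδ)
  exact (two_adic_odd (d := ((n * p : ℕ) : ℤ)) hMe hbo (by omega) hN).2 (by omega)

theorem stmtE2_of (lin : Lin3) : StmtE2 := by
  intro κ n hn ho h3 h5 p hp p5 hpn hok hκ hc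
  have hcop : Nat.Coprime n p := ((Nat.Prime.coprime_iff_not_dvd hp).mpr hpn).symm
  have hd : Squarefree (n * p) := (Nat.squarefree_mul hcop).mpr ⟨hn, hp.squarefree⟩
  have hpo : Odd p := hp.odd_of_ne_two (by omega)
  have hmo : Odd (n * p) := ho.mul hpo
  obtain ⟨m, hm⟩ : ∃ m, m = n * p := ⟨_, rfl⟩
  have hm2 : m % 2 = 1 := by rw [hm]; exact Nat.odd_iff.mp hmo
  have h2m : Squarefree (2 * m) := by
    rw [hm]
    exact (Nat.squarefree_mul (Nat.coprime_two_left.mpr hmo)).mpr ⟨Nat.prime_two.squarefree, hd⟩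
  rw [← hm] at hok hκ ⊢
  apply desc_gen h2m hok
  intro b M e N hb hMe hN hbD hb5 hloc
  have hfin : b = 1 ∨ b = -((2 * (n * p) : ℕ) : ℤ) := by
    refine lin (κ := κ) hn ho h3 h5 hp p5 hpn (by rw [← hm]; exact hok) (by rw [← hm]; exact hκ)
      hc (by rw [← hm, mul_comm m 2]; exact hbD) ?_ hb5
      (fun q δ hq _ hδ => hloc q δ hq (by rw [hm]; exact hδ))
    rw [← hm]
    have hd2 : ((2 * m : ℕ) : ℤ) = 2 * (m : ℤ) := by push_cast; ring
    by_cases hbo : b % 2 = 1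
    · left
      exact two_adic_even (d := ((2 * m : ℕ) : ℤ)) (δ := (m : ℤ)) hMe hbo (by omega) hd2 hN
    · right
      obtain ⟨b', hb'⟩ : ∃ b', b = 2 * b' := ⟨b / 2, by omega⟩
      have hb'o : b' % 2 = 1 := by
        have h1 := not_dvd_of_sqf Nat.prime_two hb (β := b') (by push_cast; exact hb')
        push_cast at h1
        omega
      exact ⟨b', hb', two_adic_even' (d := ((2 * m : ℕ) : ℤ)) (δ := (m : ℤ)) (β := b') hMe hb'o
        (by omega) hd2 hb' hN⟩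
  rw [hm]
  exact hfin

end Vale.Agent.P017.R4.H816
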